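import Vale.Agent.P221.GM
import Mathlib.Algebra.BigOperators.Finprod
import Mathlib.Algebra.Module.BigOperators
import Mathlib.Algebra.Module.Submodule.EqLocus

/-!
# P221: projective graded modules: lifting property, extensions, sums
-/

namespace Vale.Agent.P221

namespace GM

variable {k : Type} [CommRing k]

section pb

variable {P : Set ℕ} {Q N M : GM k} (π : Lin P Q N) (f : Lin P M N)

open Classical in
/-- the pull back; the operators `Y_m`, `m ∉ P`, are defined to be zero -/
noncomputable def pbk : GM k where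
  A i := LinearMap.eqLocus (π.f i ∘ₗ LinearMap.fst k (Q.A i) (M.A i))
    (f.f i ∘ₗ LinearMap.snd k (Q.A i) (M.A i))
  act m {i j} h := if hm : m ∈ P then
    LinearMap.restrict (LinearMap.prodMap (Q.act m h) (M.act m h)) (fun x hx => by
      have hx' : π.f i x.1 = f.f i x.2 := hx
      change π.f j (Q.act m h x.1) = f.f j (M.act m h x.2)
      rw [π.comm m hm, f.comm m hm, hx']) else 0
  comm m n {i j j' l} h1 h2 h3 h4 x := by
    by_cases hm : m ∈ P
    · by_cases hn : n ∈ P
      · simp only [hm, hn, dite_true]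
        apply Subtype.ext
        apply Prod.ext
        · exact Q.comm m n h1 h2 h3 h4 _
        · exact M.comm m n h1 h2 h3 h4 _
      · simp only [hm, hn, dite_true, dite_false, LinearMap.zero_apply, map_zero]
    · by_cases hn : n ∈ P
      · simp only [hm, hn, dite_true, dite_false, LinearMap.zero_apply, map_zero]
      · simp only [hm, hn, dite_false, LinearMap.zero_apply]

/-- the projection to `M` -/
noncomputable def pbSnd : Lin P (pbk π f) M where
  f i := LinearMap.snd k (Q.A i) (M.A i) ∘ₗ Submodule.subtype _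
  comm m hm i j h x := by
    simp only [pbk, hm, dite_true]
    rfl

/-- the projection to `Q` -/
noncomputable def pbFst : Lin P (pbk π f) Q where
  f i := LinearMap.fst k (Q.A i) (M.A i) ∘ₗ Submodule.subtype _
  comm m hm i j h x := by
    simp only [pbk, hm, dite_true]
    rfl

theorem pb_eq (i : ℤ) (x : (pbk π f).A i) : π.f i ((pbFst π f).f i x) = f.f i ((pbSnd π f).f i x) :=
  x.2

/-- the lifting property of projective modules -/
theorem Proj.lift (hM : Proj P M) (hπ : ∀ i, Function.Surjective (π.f i)) :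
    ∃ s : Lin P M Q, ∀ i x, π.f i (s.f i x) = f.f i x := by
  obtain ⟨s, hs⟩ := hM (pbk π f) (pbSnd π f) (fun i x => by
    obtain ⟨q, hq⟩ := hπ i (f.f i x)
    exact ⟨⟨(q, x), hq⟩, rfl⟩)
  refine ⟨s.comp (pbFst π f), fun i x => ?_⟩
  change π.f i ((pbFst π f).f i (s.f i x)) = f.f i x
  rw [pb_eq, hs]

end pb

variable {P : Set ℕ}

theorem Proj.of_lift {M : GM k} (h : ∀ (Q : GM k) (π : Lin P Q M),
    (∀ i, Function.Surjective (π.f i)) → ∃ s : Lin P M Q, ∀ i x, π.f i (s.f i x) = x) : Proj P M :=
  h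

/-- retracts -/
theorem Proj.of_retract {M N : GM k} (a : Lin P M N) (b : Lin P N M)
    (hab : ∀ i x, b.f i (a.f i x) = x) (hN : Proj P N) : Proj P M := by
  intro Q π hπ
  obtain ⟨s, hs⟩ := hN.lift π b hπ
  refine ⟨a.comp s, fun i x => ?_⟩
  change π.f i (s.f i (a.f i x)) = x
  rw [hs, hab]

/-- the zero module -/
theorem Proj.of_subsingleton {M : GM k} (h : ∀ i (x : M.A i), x = 0) : Proj P M := by
  intro Q π _
  exact ⟨⟨fun _ => 0, fun m _ i j h x => by simp⟩, fun i x => by rw [h i x, map_zero, map_zero]⟩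

/-- extensions -/
theorem Proj.ext {M' M M'' : GM k} (S : Ses M' M M'') (h' : Proj P M') (h'' : Proj P M'') :
    Proj P M := by
  intro Q π hπ
  -- the section over `M''`
  obtain ⟨σ, hσ⟩ := h'' M (S.g.mono (Set.subset_univ _)) S.surj
  change ∀ i x, S.g.f i (σ.f i x) = x at hσ
  obtain ⟨s'', hs''⟩ := h''.lift π σ hπ
  obtain ⟨s', hs'⟩ := h'.lift π (S.f.mono (Set.subset_univ _)) hπ
  change ∀ i x, π.f i (s'.f i x) = S.f.f i x at hs'
  have h1 : ∀ i (x : M.A i), ∃ y, S.f.f i y = x - σ.f i (S.g.f i x) := fun i x => by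
    rw [← S.exact, map_sub, hσ, sub_self]
  choose y hy using h1
  have hadd : ∀ i a b, y i (a + b) = y i a + y i b := fun i a b => by
    apply S.inj
    rw [(S.f.f i).map_add, hy, hy, hy, map_add, map_add]
    abel
  have hsmul : ∀ i (c : k) a, y i (c • a) = c • y i a := fun i c a => by
    apply S.inj
    rw [(S.f.f i).map_smul, hy, hy, map_smul, map_smul, smul_sub]
  have hact : ∀ m ∈ P, ∀ {i j : ℤ} (h : i + ((m : ℤ) + 1) = j) (x : M.A i),
      y j (M.act m h x) = M'.act m h (y i x) := fun m hm i j h x => by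
    apply S.inj
    rw [hy, S.f.comm m (Set.mem_univ _), hy, map_sub, S.g.comm m (Set.mem_univ _),
      σ.comm m hm]
  refine ⟨⟨fun i => ⟨⟨fun x => s'.f i (y i x) + s''.f i (S.g.f i x), fun a b => ?_⟩,
    fun c a => ?_⟩, fun m hm i j h x => ?_⟩, fun i x => ?_⟩
  · rw [hadd, map_add, map_add, map_add]
    abel
  · change s'.f i (y i (c • a)) + s''.f i (S.g.f i (c • a)) = c • (s'.f i (y i a) + s''.f i (S.g.f i a))
    rw [hsmul, map_smul, map_smul, map_smul, smul_add]
  · change s'.f j (y j (M.act m h x)) + s''.f j (S.g.f j (M.act m h x)) =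
      Q.act m h (s'.f i (y i x) + s''.f i (S.g.f i x))
    rw [hact m hm, S.g.comm m (Set.mem_univ _), s'.comm m hm, s''.comm m hm, map_add]
  · change π.f i (s'.f i (y i x) + s''.f i (S.g.f i x)) = x
    rw [map_add, hs', hs'', hy]
    abel

/-- locally finite sums -/
theorem Proj.sum {I : Type} {M : GM k} (N : I → GM k) (ι : ∀ a, Lin P (N a) M)
    (q : ∀ a, Lin P M (N a))
    (hfin : ∀ i (x : M.A i), ∃ s : Finset I, x = ∑ a ∈ s, (ι a).f i ((q a).f i x) ∧
      ∀ a ∉ s, (q a).f i x = 0) (hN : ∀ a, Proj P (N a)) : Proj P M := by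
  intro Q π hπ
  choose s hs using fun a => (hN a).lift π (ι a) hπ
  have hsup : ∀ i (x : M.A i), (Function.support fun a => (s a).f i ((q a).f i x)).Finite := by
    intro i x
    obtain ⟨F, _, hF⟩ := hfin i x
    refine F.finite_toSet.subset fun a ha => ?_
    by_contra h
    exact ha (by simp only [hF a h, map_zero])
  refine ⟨⟨fun i => ⟨⟨fun x => ∑ᶠ a, (s a).f i ((q a).f i x), fun x y => ?_⟩, fun c x => ?_⟩,
    fun m hm i j h x => ?_⟩, fun i x => ?_⟩
  · simp only [map_add]
    exact finsum_add_distrib (hsup i x) (hsup i y)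
  · simp only [map_smul, RingHom.id_apply]
    exact (smul_finsum' c (hsup i x)).symm
  · change (∑ᶠ a, (s a).f j ((q a).f j (M.act m h x))) =
      Q.act m h (∑ᶠ a, (s a).f i ((q a).f i x))
    have h1 := (Q.act m h).toAddMonoidHom.map_finsum (hsup i x)
    refine Eq.trans ?_ h1.symm
    refine finsum_congr fun a => ?_
    rw [(q a).comm m hm, (s a).comm m hm]
    rfl
  · change π.f i (∑ᶠ a, (s a).f i ((q a).f i x)) = x
    have h1 := (π.f i).toAddMonoidHom.map_finsum (hsup i x)
    refine Eq.trans h1 ?_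
    obtain ⟨F, hF1, hF⟩ := hfin i x
    have h2 : ∀ a, (π.f i).toAddMonoidHom ((s a).f i ((q a).f i x)) = (ι a).f i ((q a).f i x) :=
      fun a => hs a i _
    rw [finsum_congr h2, finsum_eq_sum_of_support_subset (s := F)]
    · exact hF1.symm
    · intro a ha
      by_contra h
      exact ha (by simp only [hF a h, map_zero])

end GM

end Vale.Agent.P221
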