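import Vale.Agent.P221.H520.Test
import Vale.Agent.P221.H520.ProjL
import Vale.Agent.P221.H174.Kap

/-!
# P221, block D2: good objects

`t : Tgt c`. `Good t X` : for all `j`, `M(X⟦j⟧)` is projective (for all subsets of the operators) and
`κ` is bijective for `X⟦j⟧`. All test objects are good, if the spheres are.
-/

open CategoryTheory MonoidalCategory Limits Pretriangulated MonObj
open Vale.Agent.P251.T Vale.Agent.P251.M Vale.Agent.P251.S
open Vale.Agent.P221.H817 Vale.Agent.P221.H174 Vale.Agent.P251.M.EvenSpheres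

universe u

set_option linter.unusedSectionVars false
set_option linter.unusedVariables false

noncomputable section

namespace Vale.Agent.P221.H520

variable {T : Type u} [Category.{0} T] [Preadditive T] [HasZeroObject T]
    [HasShift T ℤ] [∀ n : ℤ, (shiftFunctor T n).Additive] [Pretriangulated T] [IsTriangulated T]
    [MonoidalCategory T] [SymmetricCategory T] [TensorTriangulated T] [MonoidalClosed T]
    [HasCoproducts.{0} T] [HasProducts.{0} T] [StableCat T] {p : ℕ} {c : Ctx T p}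

lemma isSphere_stdEven (i : ℤ) : IsSphere ((stdEven T).S i) :=
  ⟨2 * i, ⟨(stdEven T).sphIso (Iso.refl _) i⟩⟩

/-- Homotopy of `R ⊗ ((∐ Y) ⊗ C)`. -/
lemma compact_sumHC (R C : T) {I : Type} (Y : I → T) {A : T} (hA : IsSphere A)
    (f : A ⟶ HC R C (∐ Y)) : ∃ s : Finset I,
      f = ∑ a ∈ s, (f ≫ hmap R C (proj Y a)) ≫ hmap R C (Sigma.ι Y a) ∧
      ∀ a ∉ s, f ≫ hmap R C (proj Y a) = 0 := by
  classical
  obtain ⟨s, g, hg⟩ := compact_sumL (R ⊗ C) Y hA (f ≫ (hcIso R C (∐ Y)).hom)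
  have hf : f = ∑ a ∈ s, (g a ≫ (hcIso R C (Y a)).inv) ≫ hmap R C (Sigma.ι Y a) := by
    rw [← cancel_mono (hcIso R C (∐ Y)).hom, hg, Preadditive.sum_comp]
    refine Finset.sum_congr rfl fun a _ => ?_
    rw [hmap_eq_hcIso]
    simp only [Category.assoc, Iso.inv_hom_id_assoc, Iso.inv_hom_id, Category.comp_id]
  have h1 : ∀ a b, hmap R C (Sigma.ι Y a) ≫ hmap R C (proj Y b) =
      if h : a = b then eqToHom (by rw [h]) else 0 := by
    intro a b
    rw [← hmap_comp]
    split_ifs with h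
    · subst h
      rw [ι_proj_self, hmap_id, eqToHom_refl]
    · rw [ι_proj_of_ne Y h, hmap_zero]
  have h2 : ∀ b, f ≫ hmap R C (proj Y b) =
      if b ∈ s then g b ≫ (hcIso R C (Y b)).inv else 0 := by
    intro b
    conv_lhs => rw [hf]
    rw [Preadditive.sum_comp]
    split_ifs with hb
    · rw [Finset.sum_eq_single_of_mem b hb]
      · rw [Category.assoc, h1, dif_pos rfl, eqToHom_refl, Category.comp_id]
      · intro a _ hab
        rw [Category.assoc, h1, dif_neg hab, comp_zero]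
    · apply Finset.sum_eq_zero
      intro a ha
      have hab : a ≠ b := by
        rintro rfl
        exact hb ha
      rw [Category.assoc, h1, dif_neg hab, comp_zero]
  refine ⟨s, ?_, fun a ha => by rw [h2, if_neg ha]⟩
  conv_lhs => rw [hf]
  refine Finset.sum_congr rfl fun a ha => ?_
  rw [h2, if_pos ha]

/-- `M(∐ Y)` is the direct sum of the `M(Y a)` -/
lemma M_coprod {I : Type} (Y : I → T) (i : ℤ) (x : (c.M (∐ Y)).A i) : ∃ s : Finset I,
    x = ∑ a ∈ s, (c.map (Sigma.ι Y a)).f i ((c.map (proj Y a)).f i x) ∧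
      ∀ a ∉ s, (c.map (proj Y a)).f i x = 0 :=
  compact_sumHC c.R c.C Y (isSphere_stdEven i) x

lemma proj_coprod {P : Set ℕ} {I : Type} (Y : I → T) (h : ∀ a, GM.Proj P (c.M (Y a))) :
    GM.Proj P (c.M (∐ Y)) :=
  GM.Proj.sum (fun a => c.M (Y a)) (fun a => (c.map (Sigma.ι Y a)).mono (Set.subset_univ _))
    (fun a => (c.map (proj Y a)).mono (Set.subset_univ _)) (M_coprod Y) h

lemma proj_of_iso {P : Set ℕ} {X Y : T} (e : X ≅ Y) (h : GM.Proj P (c.M X)) :
    GM.Proj P (c.M Y) :=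
  GM.Proj.of_retract ((c.map e.inv).mono (Set.subset_univ _))
    ((c.map e.hom).mono (Set.subset_univ _)) (fun i x => by
      change (c.map e.hom).f i ((c.map e.inv).f i x) = x
      rw [← c.map_comp, Iso.inv_hom_id, c.map_id]) h

variable (t : Tgt c)

lemma kInj_coprod {I : Type} (Y : I → T) (h : ∀ a, t.KInj (Y a)) : t.KInj (∐ Y) := by
  intro f hf
  apply Sigma.hom_ext
  intro a
  rw [comp_zero]
  refine h a _ ?_
  rw [t.kap_comp, hf]
  exact GM.Lin.ext fun i x => rfl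

lemma kSurj_coprod {I : Type} (Y : I → T) (h : ∀ a, t.KSurj (Y a)) : t.KSurj (∐ Y) := by
  intro φ
  choose f hf using fun a => h a ((c.map (Sigma.ι Y a)).comp φ)
  refine ⟨Sigma.desc f, GM.Lin.ext fun i x => ?_⟩
  obtain ⟨s, hs, _⟩ := M_coprod Y i x
  have h1 : ∀ a (y : (c.M (Y a)).A i), (t.kap (Sigma.desc f)).f i ((c.map (Sigma.ι Y a)).f i y) =
      φ.f i ((c.map (Sigma.ι Y a)).f i y) := by
    intro a y
    have h2 : (c.map (Sigma.ι Y a)).comp (t.kap (Sigma.desc f)) =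
        (c.map (Sigma.ι Y a)).comp φ := by
      rw [← t.kap_comp, Sigma.ι_desc, hf]
    exact congrArg (fun z : GM.Lin Set.univ (c.M (Y a)) t.G => z.f i y) h2
  rw [hs, map_sum, map_sum]
  exact Finset.sum_congr rfl fun a _ => h1 a _

/-! ### Null maps -/

lemma map_eq_zero_of_null {X Y : T} {f : X ⟶ Y} (hf : Null c.R c.C f) (i : ℤ)
    (x : (c.M X).A i) : (c.map f).f i x = 0 := by
  have h0 : ∀ x : (stdEven T).S i ⟶ c.R ⊗ (X ⊗ c.C), x ≫ (c.R ◁ (f ▷ c.C)) = 0 := by
    intro x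
    have h1 := hf (2 * i) (((stdEven T).sphIso (Iso.refl _) i).inv ≫ x)
    rw [Category.assoc] at h1
    rw [← cancel_epi ((stdEven T).sphIso (Iso.refl _) i).inv, comp_zero]
    exact h1
  exact h0 x

/-- shifts of null maps are null -/
lemma null_shift {R C : T} {X Y : T} {f : X ⟶ Y} (hf : Null R C f) (n : ℤ) :
    Null R C (f⟦n⟧') := by
  intro k w
  let F : T ⥤ T := tensorRight C ⋙ tensorLeft R
  have hnat : hmap R C (f⟦n⟧') ≫ (F.commShiftIso n).hom.app Y =
      (F.commShiftIso n).hom.app X ≫ (hmap R C f)⟦n⟧' := (F.commShiftIso n).hom.naturality f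
  let e : (𝟙_ T)⟦k⟧ ≅ ((𝟙_ T)⟦k - n⟧)⟦n⟧ := (shiftFunctorAdd' T (k - n) n k (by ring)).app (𝟙_ T)
  obtain ⟨w', hw'⟩ := (shiftFunctor T n).map_surjective (X := (𝟙_ T)⟦k - n⟧) (Y := HC R C X)
    (e.inv ≫ w ≫ (F.commShiftIso n).hom.app X)
  have h1 : w' ≫ hmap R C f = 0 := hf (k - n) w'
  have h2 : e.inv ≫ w ≫ hmap R C (f⟦n⟧') ≫ (F.commShiftIso n).hom.app Y = 0 := by
    rw [hnat, ← Category.assoc w, ← Category.assoc e.inv, ← hw', ← Functor.map_comp, h1,
      Functor.map_zero]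
  rw [← cancel_epi e.inv, ← cancel_mono ((F.commShiftIso n).hom.app Y), comp_zero, zero_comp,
    Category.assoc, Category.assoc]
  exact h2

lemma Null.comp_iso {R C : T} {X Y Z : T} {f : X ⟶ Y} (hf : Null R C f) (g : Y ⟶ Z) :
    Null R C (f ≫ g) := by
  intro k w
  rw [hmap_comp, ← Category.assoc, hf, zero_comp]

lemma null_neg {R C : T} {X Y : T} {f : X ⟶ Y} (hf : Null R C f) : Null R C (-f) := by
  intro k w
  have h1 : hmap R C (-f) = -hmap R C f := by
    rw [hmap, neg_whiskerRight', whiskerLeft_neg']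
  rw [h1, Preadditive.comp_neg, hf, neg_zero]

/-! ### Good objects -/

/-- the properties of `X` -/
structure Good0 (X : T) : Prop where
  proj : ∀ P : Set ℕ, GM.Proj P (c.M X)
  inj : t.KInj X
  surj : t.KSurj X

/-- the properties of all shifts of `X` -/
def Good (X : T) : Prop := ∀ j : ℤ, Good0 t (X⟦j⟧)

variable {t}

lemma Good0.of_iso {X Y : T} (e : X ≅ Y) (h : Good0 t X) : Good0 t Y :=
  ⟨fun P => proj_of_iso e (h.proj P), h.inj.of_iso e, h.surj.of_iso e⟩

lemma Good0.of_isZero {X : T} (hX : IsZero X) : Good0 t X where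
  proj P := GM.Proj.of_subsingleton fun i x => by
    have h1 : x = (c.map (𝟙 X)).f i x := (c.map_id X i x).symm
    rw [h1, hX.eq_of_src (𝟙 X) 0, c.map_zero]
  inj f _ := hX.eq_of_src _ _
  surj φ := ⟨0, GM.Lin.ext fun i x => by
    have h1 : x = (c.map (𝟙 X)).f i x := (c.map_id X i x).symm
    rw [h1, hX.eq_of_src (𝟙 X) 0, c.map_zero, map_zero, map_zero]⟩

lemma Good0.coprod {I : Type} {Y : I → T} (h : ∀ a, Good0 t (Y a)) : Good0 t (∐ Y) where
  proj P := proj_coprod Y fun a => (h a).proj P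
  inj := kInj_coprod t Y fun a => (h a).inj
  surj := kSurj_coprod t Y fun a => (h a).surj

/-- extensions: `h : Z ⟶ X⟦1⟧` and `w : W ⟶ X` (the desuspension of `h`) are null -/
lemma Good0.ext {W X Y Z : T} {w : W ⟶ X} {f : X ⟶ Y} {g : Y ⟶ Z} {h : Z ⟶ X⟦(1 : ℤ)⟧}
    {f' : Y ⟶ W⟦(1 : ℤ)⟧}
    (H : Triangle.mk f g h ∈ distTriang T) (H' : Triangle.mk w f f' ∈ distTriang T)
    (hh : Null c.R c.C h) (hw : Null c.R c.C w)
    (hX : Good0 t X) (hZ : Good0 t Z) (hW : t.KInj W) : Good0 t Y := by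
  have hg : ∀ i (z : (c.M Z).A i), ∃ y, (c.map g).f i y = z := fun i z =>
    c.exact₃ H i z (map_eq_zero_of_null hh i z)
  have hf : ∀ i (x : (c.M X).A i), (c.map f).f i x = 0 → x = 0 := fun i x hx => by
    obtain ⟨y, rfl⟩ := c.exact₂ H' i x hx
    exact map_eq_zero_of_null hw i y
  exact ⟨fun P => (hX.proj P).ext (c.ses' H hf hg) (hZ.proj P), hX.inj.ext H hZ.inj hg,
    Tgt.KSurj.ext H (w := w) (fun A a ha => dist_yo₂ H' a ha) (dist_zero₁₂ H') hX.surj hZ.surj hW
      hg⟩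

lemma Good.shift {X : T} (h : Good t X) (m : ℤ) : Good t (X⟦m⟧) := fun j =>
  (h (m + j)).of_iso ((shiftFunctorAdd' T m j (m + j) rfl).app X)

lemma Good.of_isZero {X : T} (hX : IsZero X) : Good t X := fun j =>
  Good0.of_isZero ((shiftFunctor T j).map_isZero hX)

lemma Good.coprod {I : Type} {Y : I → T} (h : ∀ a, Good t (Y a)) : Good t (∐ Y) := fun j =>
  (Good0.coprod (fun a => h a j)).of_iso
    (PreservesCoproduct.iso (shiftFunctor T j) Y).symm

lemma Good.ext {X Y Z : T} (f : X ⟶ Y) (g : Y ⟶ Z) (h : Z ⟶ X⟦(1 : ℤ)⟧)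
    (H : Triangle.mk f g h ∈ distTriang T) (hh : Null c.R c.C h)
    (hX : Good t X) (hZ : Good t Z) : Good t Y := by
  intro j
  -- the triangle shifted by `j`
  have H1 : Triangle.mk (j.negOnePow • f⟦j⟧') (j.negOnePow • g⟦j⟧')
      (j.negOnePow • h⟦j⟧' ≫ (shiftFunctorComm T 1 j).hom.app X) ∈ distTriang T :=
    Triangle.shift_distinguished _ H j
  have n1 : Null c.R c.C (j.negOnePow • h⟦j⟧' ≫ (shiftFunctorComm T 1 j).hom.app X) := by
    have n0 : Null c.R c.C (h⟦j⟧' ≫ (shiftFunctorComm T 1 j).hom.app X) :=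
      Null.comp_iso (null_shift hh j) _
    rcases Int.units_eq_one_or j.negOnePow with h1 | h1
    · rw [h1, one_smul]
      exact n0
    · rw [h1, Units.neg_smul, one_smul]
      exact null_neg n0
  -- `Z⟦j - 1⟧ ⟶ X⟦j⟧ ⟶ Y⟦j⟧`
  have H2 := inv_rot_of_distTriang _ H1
  refine Good0.ext (t := t) H1 H2 n1 ?_ (hX j) (hZ j) ?_
  · exact null_neg (Null.comp_iso (null_shift n1 (-1)) _)
  · exact (hZ (j - 1)).inj.of_iso
      ((shiftFunctorAdd' T j (-1) (j - 1) (by ring)).app Z)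

/-- **Test objects are good**, if spheres are. -/
theorem good_of_test (hodd : ∀ (k : ℤ) (f : (𝟙_ T)⟦2 * k + 1⟧ ⟶ c.R ⊗ c.C), f = 0)
    (hs : ∀ k : ℤ, Good0 t ((𝟙_ T)⟦k⟧)) {F : T} (hF : TestObj c.C F) : Good t F :=
  hF.induction (R := c.R) (P := Good t) c.dist hodd (fun X hX => Good.of_isZero hX)
    (fun k j => (hs (k + j)).of_iso ((shiftFunctorAdd' T k j (k + j) rfl).app (𝟙_ T)))
    (fun X m h => h.shift m) (fun f g h H hh hX hZ => Good.ext f g h H hh hX hZ)
    (fun Y h => Good.coprod h)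

end Vale.Agent.P221.H520
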