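import Vale.Agent.P221.H817.Cover
import Vale.Agent.P221.H817.Uct

/-!
# P221, block D2: the Moore cover and the class of test objects

`C` is the cofibre of `p : 𝟙 ⟶ 𝟙`, `R` a telescope of finite even complexes.

* `exists_ext`, `exists_red_of_δ`, `exists_δ_of_zsmul`: exactness for `X ⟶ C ⊗ X ⟶ 𝟙⟦1⟧ ⊗ X`;
* `TestObj C` : the class of test objects: `F` and `F ⊗ C`, where some shift of `F` is a finite even
  complex, and coproducts of those;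
* `exists_moore_cover` : every class in `π_k (R ⊗ (X ⊗ C))` is the sum of two classes which come from
  test objects over `X`;
* `exists_test_cover` : for every `X` there is a test object `F` and `f : F ⟶ X` which is onto on
  all `π_k (R ⊗ (- ⊗ C))`.
-/

open CategoryTheory MonoidalCategory Limits Pretriangulated ZeroObject
open Vale.Agent.P251.T Vale.Agent.P251.M Vale.Agent.P221.H817

universe v u

set_option linter.unusedSectionVars false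
set_option linter.style.haveILetI false

namespace Vale.Agent.P221.H520

variable {T : Type u} [Category.{v} T] [Preadditive T] [HasZeroObject T]
    [HasShift T ℤ] [∀ n : ℤ, (shiftFunctor T n).Additive] [Pretriangulated T] [IsTriangulated T]
    [MonoidalCategory T] [SymmetricCategory T] [TensorTriangulated T] [MonoidalClosed T]
    [HasCoproducts.{0} T] [HasProducts.{0} T] [StableCat T]

/-- `X ⟶ C ⊗ X` -/
def red {C : T} (i : 𝟙_ T ⟶ C) (X : T) : X ⟶ C ⊗ X := (λ_ X).inv ≫ i ▷ X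

lemma red_nat {C : T} (i : 𝟙_ T ⟶ C) {X Y : T} (f : X ⟶ Y) : red i X ≫ C ◁ f = f ≫ red i Y := by
  rw [red, red, Category.assoc, ← whisker_exchange, ← Category.assoc, ← Category.assoc,
    leftUnitor_inv_naturality]

section Moore

variable {p : ℤ} {C : T} {i : 𝟙_ T ⟶ C} {δ : C ⟶ (𝟙_ T)⟦(1 : ℤ)⟧}

lemma zsmul_id_whiskerRight (q : ℤ) (A X : T) : (q • 𝟙 A) ▷ X = q • 𝟙 (A ⊗ X) := by
  have h : (q • 𝟙 A) ▷ X = q • (𝟙 A ▷ X) := (tensorRight X).map_zsmul (f := 𝟙 A) (r := q)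
  rw [h, id_whiskerRight]

lemma zsmul_id_whiskerLeft (q : ℤ) (A X : T) : X ◁ (q • 𝟙 A) = q • 𝟙 (X ⊗ A) := by
  have h : X ◁ (q • 𝟙 A) = q • (X ◁ 𝟙 A) := (tensorLeft X).map_zsmul (f := 𝟙 A) (r := q)
  rw [h, MonoidalCategory.whiskerLeft_id]

variable (hC : Triangle.mk (p • 𝟙 (𝟙_ T)) i δ ∈ distTriang T)

include hC

lemma dist_red (X : T) :
    ∃ h' : C ⊗ X ⟶ X⟦(1 : ℤ)⟧, Triangle.mk (p • 𝟙 X) (red i X) h' ∈ distTriang T := by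
  obtain ⟨h1, H1⟩ := dist_tensorRight hC X
  refine exists_dist_of_iso H1 (λ_ X) (λ_ X) (Iso.refl _) ?_ ?_
  · rw [zsmul_id_whiskerRight, Preadditive.zsmul_comp, Preadditive.comp_zsmul, Category.id_comp,
      Category.comp_id]
  · simp [red]

/-- extension along `X ⟶ C ⊗ X` -/
lemma exists_ext {X Z : T} (f : X ⟶ Z) (hf : p • f = 0) :
    ∃ g : C ⊗ X ⟶ Z, red i X ≫ g = f := by
  obtain ⟨h1, H1⟩ := dist_red hC X
  obtain ⟨g, hg⟩ := dist_yo₂ H1 f (by rw [Preadditive.zsmul_comp, Category.id_comp, hf])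
  exact ⟨g, hg.symm⟩

lemma zsmul_red (X : T) : p • red i X = 0 := by
  obtain ⟨h1, H1⟩ := dist_red hC X
  have := dist_zero₁₂ H1
  rwa [Preadditive.zsmul_comp, Category.id_comp] at this

/-- exactness at `C ⊗ X` -/
lemma exists_red_of_δ {X W : T} (f : W ⟶ C ⊗ X) (hf : f ≫ δ ▷ X = 0) :
    ∃ g : W ⟶ X, g ≫ red i X = f := by
  have h : Triangle.mk i δ (-((p • 𝟙 (𝟙_ T))⟦(1 : ℤ)⟧')) ∈ distTriang T := rot_of_distTriang _ hC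
  obtain ⟨h1, H1⟩ := dist_tensorRight h X
  obtain ⟨g, hg⟩ := dist_co₂ H1 f hf
  refine ⟨g ≫ (λ_ X).hom, ?_⟩
  rw [hg, red, Category.assoc, Iso.hom_inv_id_assoc]

lemma dist_δ : ∃ h : (𝟙_ T)⟦(1 : ℤ)⟧ ⟶ C⟦(1 : ℤ)⟧,
    Triangle.mk δ (-(p • 𝟙 ((𝟙_ T)⟦(1 : ℤ)⟧))) h ∈ distTriang T := by
  have h := rot_of_distTriang _ (rot_of_distTriang _ hC)
  refine ⟨-(i⟦(1 : ℤ)⟧'), ?_⟩
  have e1 : -((p • 𝟙 (𝟙_ T))⟦(1 : ℤ)⟧') = -(p • 𝟙 ((𝟙_ T)⟦(1 : ℤ)⟧)) := by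
    rw [Functor.map_zsmul, CategoryTheory.Functor.map_id]
  rw [← e1]
  exact h

lemma dist_δ' (X : T) : ∃ h : (𝟙_ T)⟦(1 : ℤ)⟧ ⊗ X ⟶ (C ⊗ X)⟦(1 : ℤ)⟧,
    Triangle.mk (δ ▷ X) (-(p • 𝟙 ((𝟙_ T)⟦(1 : ℤ)⟧ ⊗ X))) h ∈ distTriang T := by
  obtain ⟨h0, H0⟩ := dist_δ hC
  obtain ⟨h1, H1⟩ := dist_tensorRight H0 X
  rw [neg_whiskerRight', zsmul_id_whiskerRight] at H1
  exact ⟨h1, H1⟩

lemma δ_zsmul (X : T) : p • (δ ▷ X) = 0 := by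
  obtain ⟨h1, H1⟩ := dist_δ' hC X
  have h2 := dist_zero₁₂ H1
  rwa [Preadditive.comp_neg, Preadditive.comp_zsmul, Category.comp_id, neg_eq_zero] at h2

/-- exactness at `𝟙⟦1⟧ ⊗ X` -/
lemma exists_δ_of_zsmul {X W : T} (f : W ⟶ (𝟙_ T)⟦(1 : ℤ)⟧ ⊗ X) (hf : p • f = 0) :
    ∃ g : W ⟶ C ⊗ X, g ≫ δ ▷ X = f := by
  obtain ⟨h1, H1⟩ := dist_δ' hC X
  obtain ⟨g, hg⟩ := dist_co₂ H1 f (by
    rw [Preadditive.comp_neg, Preadditive.comp_zsmul, Category.comp_id, hf, neg_zero])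
  exact ⟨g, hg.symm⟩

/-- **The Moore trick**: a map `f' : F' ⟶ C ⊗ X` is the sum of two maps which come from maps
`C ⊗ F'⟦-1⟧ ⟶ X` and `F' ⟶ X`. -/
theorem moore_split {F' X : T} (f' : F' ⟶ C ⊗ X) :
    ∃ (g₁ : C ⊗ F'⟦(-1 : ℤ)⟧ ⟶ X) (u : F' ⟶ C ⊗ (C ⊗ F'⟦(-1 : ℤ)⟧)) (g₂ : F' ⟶ X),
      u ≫ C ◁ g₁ + red i F' ≫ C ◁ g₂ = f' := by
  -- `𝟙⟦1⟧ ⊗ (C ⊗ F'⟦-1⟧) ≅ C ⊗ F'`
  let e : (𝟙_ T)⟦(1 : ℤ)⟧ ⊗ (C ⊗ F'⟦(-1 : ℤ)⟧) ≅ C ⊗ F' :=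
    (β_ _ _) ≪≫ tensorUnitShiftIso _ _ ≪≫ (tensorUnitShiftIso _ _).symm ≪≫ α_ _ _ _ ≪≫
      whiskerLeftIso C (tensorUnitShiftIso _ _ ≪≫
        (shiftFunctorCompIsoId T (-1 : ℤ) 1 (by omega)).app F')
  obtain ⟨f₁, hf₁⟩ := exists_ext hC (f' ≫ δ ▷ X) (by
    rw [← Preadditive.comp_zsmul, δ_zsmul hC, comp_zero])
  have full : (tensorLeft ((𝟙_ T)⟦(1 : ℤ)⟧)).Full := by
    have i1 : shiftFunctor T (1 : ℤ) ≅ tensorLeft ((𝟙_ T)⟦(1 : ℤ)⟧) :=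
      tensorS1.symm ≪≫ (BraidedCategory.tensorLeftIsoTensorRight ((𝟙_ T)⟦(1 : ℤ)⟧)).symm
    have := Functor.isEquivalence_of_iso i1
    infer_instance
  obtain ⟨g₁, hg₁⟩ := (tensorLeft ((𝟙_ T)⟦(1 : ℤ)⟧)).map_surjective (X := C ⊗ F'⟦(-1 : ℤ)⟧) (Y := X)
    (e.hom ≫ f₁)
  change (𝟙_ T)⟦(1 : ℤ)⟧ ◁ g₁ = e.hom ≫ f₁ at hg₁
  obtain ⟨u, hu⟩ := exists_δ_of_zsmul hC (red i F' ≫ e.inv) (by
    rw [← Preadditive.zsmul_comp, zsmul_red hC, zero_comp])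
  obtain ⟨g₂, hg₂⟩ := exists_red_of_δ hC (f' - u ≫ C ◁ g₁) (by
    rw [Preadditive.sub_comp, Category.assoc, whisker_exchange, hg₁, ← Category.assoc u, hu,
      Category.assoc, Iso.inv_hom_id_assoc, hf₁, sub_self])
  refine ⟨g₁, u, g₂, ?_⟩
  rw [red_nat, hg₂]
  abel


/-- The Moore trick for `X ⊗ C`. -/
theorem moore_split' {F' X : T} (f' : F' ⟶ X ⊗ C) :
    ∃ (g₁ : F'⟦(-1 : ℤ)⟧ ⊗ C ⟶ X) (u : F' ⟶ (F'⟦(-1 : ℤ)⟧ ⊗ C) ⊗ C) (g₂ : F' ⟶ X)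
      (v : F' ⟶ F' ⊗ C), u ≫ g₁ ▷ C + v ≫ g₂ ▷ C = f' := by
  obtain ⟨g₁, u, g₂, h⟩ := moore_split hC (f' ≫ (β_ X C).hom)
  refine ⟨(β_ _ _).hom ≫ g₁, u ≫ (β_ C _).hom ≫ (β_ C _).hom ▷ C, g₂, red i F' ≫ (β_ C F').hom, ?_⟩
  rw [← cancel_mono (β_ X C).hom, ← h, Preadditive.add_comp]
  congr 1
  · rw [comp_whiskerRight, Category.assoc, Category.assoc, Category.assoc, Category.assoc,
      ← comp_whiskerRight_assoc (β_ C (F'⟦(-1 : ℤ)⟧)).hom, SymmetricCategory.symmetry,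
      id_whiskerRight, Category.id_comp, BraidedCategory.braiding_naturality_left,
      SymmetricCategory.symmetry_assoc]
  · rw [Category.assoc, Category.assoc, BraidedCategory.braiding_naturality_left,
      SymmetricCategory.symmetry_assoc]

end Moore

/-! ### Test objects -/

/-- The class of test objects: `F` and `F ⊗ C`, where some shift of `F` is a finite even complex, and
their coproducts. -/
inductive TestObj (C : T) : T → Prop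
  | cell {F : T} (m d : ℤ) (hF : EvenCell T d (F⟦m⟧)) : TestObj C F
  | moore {F : T} (m d : ℤ) (hF : EvenCell T d (F⟦m⟧)) : TestObj C (F ⊗ C)
  | coprod {I : Type} (Y : I → T) (hY : ∀ i, TestObj C (Y i)) : TestObj C (∐ Y)

/-- The cover lemma, with odd classes. -/
theorem hasCover_cell {d : ℤ} {Z : T} (hZ : EvenCell T d Z) (k m k' : ℤ) (h : k + m = 2 * k') :
    HasCover (fun F => ∃ d' : ℤ, EvenCell T d' (F⟦m⟧)) ((𝟙_ T)⟦k⟧) Z := by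
  induction hZ with
  | zero Z hZ =>
    exact HasCover.of_isZero (fun X hX => ⟨0, EvenCell.zero _ ((shiftFunctor T m).map_isZero hX)⟩) hZ
  | sphere j hj =>
    have := full_tensorLeft_unit_shift (T := T) j
    refine HasCover.of_isInv ((𝟙_ T)⟦k - 2 * j⟧) ⟨k' - j, ?_⟩ ?_
    · refine EvenCell.of_iso ((shiftFunctorAdd' T (k - 2 * j) m (k - 2 * j + m) rfl).app (𝟙_ T)) ?_
      exact EvenCell.sphere' _ (k' - j) (by omega) le_rfl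
    · exact tensorUnitShiftIso _ _ ≪≫
        ((shiftFunctorAdd' T (2 * j) (k - 2 * j) k (by ring)).app (𝟙_ T)).symm
  | ext Δ hΔ _ _ ih₁ ih₃ =>
    refine HasCover.ext ?_ Δ hΔ ih₁ ih₃
    rintro Δ' hΔ' ⟨d1, h1⟩ ⟨d3, h3⟩
    exact ⟨min d1 d3, EvenCell.ext _ (Triangle.shift_distinguished Δ' hΔ' m)
      (h1.mono (min_le_left _ _)) (h3.mono (min_le_right _ _))⟩

/-- The same for a telescope `R` of finite even complexes. -/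
theorem exists_cover_cell {E : ℕ ⥤ T} {R : T} {ι : ∀ n, E.obj n ⟶ R} (tel : IsTel E R ι)
    (hE : ∀ n, ∃ d, EvenCell T d (E.obj n)) (X : T) (k m k' : ℤ) (h : k + m = 2 * k')
    (x : (𝟙_ T)⟦k⟧ ⟶ R ⊗ X) :
    ∃ (F : T) (d : ℤ), EvenCell T d (F⟦m⟧) ∧ ∃ (f : F ⟶ X) (y : (𝟙_ T)⟦k⟧ ⟶ R ⊗ F),
      y ≫ (R ◁ f) = x := by
  obtain ⟨n, x', hx'⟩ := tel.whiskerRight_factor X (isCpt_sph k) x
  obtain ⟨d, hd⟩ := hE n
  obtain ⟨F, ⟨d', hF⟩, f, y, hy⟩ := hasCover_cell hd k m k' h X x'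
  refine ⟨F, d', hF, f, y ≫ ι n ▷ F, ?_⟩
  rw [Category.assoc, ← whisker_exchange, ← Category.assoc, hy, hx']

section Cover

variable {p : ℤ} {C : T} {i : 𝟙_ T ⟶ C} {δ : C ⟶ (𝟙_ T)⟦(1 : ℤ)⟧}
  (hC : Triangle.mk (p • 𝟙 (𝟙_ T)) i δ ∈ distTriang T)
  {E : ℕ ⥤ T} {R : T} {ι : ∀ n, E.obj n ⟶ R} (tel : IsTel E R ι)
  (hE : ∀ n, ∃ d, EvenCell T d (E.obj n))

include hC tel hE

/-- **The Moore cover.** Every class in `π_k (R ⊗ (X ⊗ C))` is the sum of two classes which come from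
`F'⟦-1⟧ ⊗ C ⟶ X` and `F' ⟶ X`, where a shift of `F'` is a finite even complex. -/
theorem exists_moore_cover (X : T) (k m k' : ℤ) (h : k + m = 2 * k')
    (w : (𝟙_ T)⟦k⟧ ⟶ HC R C X) :
    ∃ (F' : T) (d : ℤ), EvenCell T d (F'⟦m⟧) ∧ ∃ (g₁ : F'⟦(-1 : ℤ)⟧ ⊗ C ⟶ X) (g₂ : F' ⟶ X)
      (y₁ : (𝟙_ T)⟦k⟧ ⟶ HC R C (F'⟦(-1 : ℤ)⟧ ⊗ C)) (y₂ : (𝟙_ T)⟦k⟧ ⟶ HC R C F'),
      y₁ ≫ hmap R C g₁ + y₂ ≫ hmap R C g₂ = w := by
  obtain ⟨F', d, hF', f', y', hy'⟩ := exists_cover_cell tel hE (X ⊗ C) k m k' h w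
  obtain ⟨g₁, u, g₂, v, hg⟩ := moore_split' hC f'
  refine ⟨F', d, hF', g₁, g₂, y' ≫ R ◁ u, y' ≫ R ◁ v, ?_⟩
  rw [hmap, hmap, Category.assoc, Category.assoc, ← MonoidalCategory.whiskerLeft_comp,
    ← MonoidalCategory.whiskerLeft_comp, ← Preadditive.comp_add,
    ← MonoidalPreadditive.whiskerLeft_add, hg, hy']

end Cover

section Cover0

variable {T : Type u} [Category.{0} T] [Preadditive T] [HasZeroObject T]
    [HasShift T ℤ] [∀ n : ℤ, (shiftFunctor T n).Additive] [Pretriangulated T] [IsTriangulated T]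
    [MonoidalCategory T] [SymmetricCategory T] [TensorTriangulated T] [MonoidalClosed T]
    [HasCoproducts.{0} T] [HasProducts.{0} T] [StableCat T]
  {p : ℤ} {C : T} {i : 𝟙_ T ⟶ C} {δ : C ⟶ (𝟙_ T)⟦(1 : ℤ)⟧}
  (hC : Triangle.mk (p • 𝟙 (𝟙_ T)) i δ ∈ distTriang T)
  {E : ℕ ⥤ T} {R : T} {ι : ∀ n, E.obj n ⟶ R} (tel : IsTel E R ι)
  (hE : ∀ n, ∃ d, EvenCell T d (E.obj n))

include hC tel hE

/-- **Covers by test objects.** -/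
theorem exists_test_cover (X : T) : ∃ F : T, TestObj C F ∧ ∃ f : F ⟶ X, Onto R C f := by
  have h1 : ∀ a : (Σ k : ℤ, ((𝟙_ T)⟦k⟧ ⟶ HC R C X)), ∃ (F' : T) (d : ℤ),
      EvenCell T d (F'⟦-a.1⟧) ∧ ∃ (g₁ : F'⟦(-1 : ℤ)⟧ ⊗ C ⟶ X) (g₂ : F' ⟶ X)
      (y₁ : (𝟙_ T)⟦a.1⟧ ⟶ HC R C (F'⟦(-1 : ℤ)⟧ ⊗ C)) (y₂ : (𝟙_ T)⟦a.1⟧ ⟶ HC R C F'),
      y₁ ≫ hmap R C g₁ + y₂ ≫ hmap R C g₂ = a.2 :=
    fun a => exists_moore_cover hC tel hE X a.1 (-a.1) 0 (by omega) a.2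
  choose F' d hF g₁ g₂ y₁ y₂ hy using h1
  let Y : (Σ k : ℤ, ((𝟙_ T)⟦k⟧ ⟶ HC R C X)) × Bool → T := fun a =>
    if a.2 then F' a.1⟦(-1 : ℤ)⟧ ⊗ C else F' a.1
  let g : ∀ a, Y a ⟶ X := fun a => match a with
    | (a, true) => g₁ a
    | (a, false) => g₂ a
  refine ⟨∐ Y, TestObj.coprod Y ?_, Sigma.desc g, ?_⟩
  · rintro ⟨a, b⟩
    cases b
    · exact TestObj.cell (-a.1) (d a) (hF a)
    · refine TestObj.moore (1 - a.1) (d a) (EvenCell.of_iso ?_ (hF a))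
      exact (shiftFunctorAdd' T (-1) (1 - a.1) (-a.1) (by omega)).app (F' a)
  · intro k w
    refine ⟨y₁ ⟨k, w⟩ ≫ hmap R C (Sigma.ι Y (⟨k, w⟩, true)) +
      y₂ ⟨k, w⟩ ≫ hmap R C (Sigma.ι Y (⟨k, w⟩, false)), ?_⟩
    rw [Preadditive.add_comp, Category.assoc, Category.assoc, ← hmap_comp, ← hmap_comp,
      Sigma.ι_desc, Sigma.ι_desc]
    exact hy ⟨k, w⟩

end Cover0

end Vale.Agent.P221.H520
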