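import Vale.Agent.P221.H520.Cover2

/-!
# P221, block D2: induction over test objects

`TestObj.induction` : a property of objects which holds for zero objects and spheres and is closed
under shifts, coproducts and extensions whose connecting map is zero on all `π_k (R ⊗ (- ⊗ C))`
holds for all test objects.
-/

open CategoryTheory MonoidalCategory Limits Pretriangulated ZeroObject MonObj
open Vale.Agent.P251.T Vale.Agent.P251.M Vale.Agent.P221.H817 Vale.Agent.P251.S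

universe v u

set_option linter.unusedSectionVars false
set_option linter.style.haveILetI false

namespace Vale.Agent.P221.H520

variable {T : Type u} [Category.{v} T] [Preadditive T] [HasZeroObject T]
    [HasShift T ℤ] [∀ n : ℤ, (shiftFunctor T n).Additive] [Pretriangulated T] [IsTriangulated T]
    [MonoidalCategory T] [SymmetricCategory T] [TensorTriangulated T] [MonoidalClosed T]
    [HasCoproducts.{0} T] [HasProducts.{0} T] [StableCat T]

/-- `R ⊗ (X ⊗ C) ≅ (R ⊗ C) ⊗ X` -/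
def hcIso (R C X : T) : HC R C X ≅ (R ⊗ C) ⊗ X :=
  whiskerLeftIso R (β_ X C) ≪≫ (α_ R C X).symm

/-- `R ⊗ (X⟦n⟧ ⊗ C) ≅ (R ⊗ (X ⊗ C))⟦n⟧` -/
noncomputable def hcShift (R C X : T) (n : ℤ) : HC R C (X⟦n⟧) ≅ (HC R C X)⟦n⟧ :=
  hcIso R C _ ≪≫ whiskerLeftIso (R ⊗ C) (tensorUnitShiftIso X n).symm ≪≫ (α_ _ _ _).symm ≪≫
    whiskerRightIso (hcIso R C X).symm _ ≪≫ tensorUnitShiftIso _ n

lemma hmap_eq_hcIso {R C : T} {X Y : T} (f : X ⟶ Y) :
    hmap R C f = (hcIso R C X).hom ≫ (R ⊗ C) ◁ f ≫ (hcIso R C Y).inv := by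
  rw [← Category.assoc, Iso.eq_comp_inv, hmap, hcIso, hcIso]
  simp only [Iso.trans_hom, whiskerLeftIso_hom, Iso.symm_hom, Category.assoc]
  rw [← MonoidalCategory.whiskerLeft_comp_assoc, BraidedCategory.braiding_naturality_left,
    MonoidalCategory.whiskerLeft_comp_assoc]
  simp

section

variable {R C : T} [MonObj R]

/-- a map `Z ⟶ C` which is zero in `R ⊗ C` -/
lemma whiskerLeft_eq_zero_of_unit {Z : T} (z : Z ⟶ C)
    (h : z ≫ (λ_ C).inv ≫ (η[R] : 𝟙_ T ⟶ R) ▷ C = 0) : R ◁ z = 0 := by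
  have h1 : R ◁ (z ≫ (λ_ C).inv ≫ (η[R] : 𝟙_ T ⟶ R) ▷ C) ≫ (α_ R R C).inv ≫ μ[R] ▷ C = R ◁ z := by
    rw [MonoidalCategory.whiskerLeft_comp, MonoidalCategory.whiskerLeft_comp, Category.assoc,
      Category.assoc]
    have h2 : R ◁ (η[R] : 𝟙_ T ⟶ R) ▷ C ≫ (α_ R R C).inv ≫ μ[R] ▷ C =
        (α_ R (𝟙_ T) C).inv ≫ (ρ_ R).hom ▷ C := by
      rw [← MonObj.mul_one, comp_whiskerRight]
      simp
    rw [h2]
    simp
  rw [← h1, h, MonoidalPreadditive.whiskerLeft_zero, zero_comp]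

variable {p : ℤ} {i : 𝟙_ T ⟶ C} {δ : C ⟶ (𝟙_ T)⟦(1 : ℤ)⟧}
  (hC : Triangle.mk (p • 𝟙 (𝟙_ T)) i δ ∈ distTriang T)
  (hodd : ∀ (k : ℤ) (f : (𝟙_ T)⟦2 * k + 1⟧ ⟶ R ⊗ C), f = 0)

include hC hodd

/-- `p = 0` on `R ⊗ C` -/
theorem zsmul_RC : p • 𝟙 (R ⊗ C) = 0 := by
  have h1 : i ≫ (p • 𝟙 C) = 0 := by
    have := dist_zero₁₂ hC
    rw [Preadditive.comp_zsmul, Category.comp_id]
    rwa [Preadditive.zsmul_comp, Category.id_comp] at this
  obtain ⟨z, hz⟩ := dist_yo₃ hC (p • 𝟙 C) h1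
  have h2 : R ◁ z = 0 := whiskerLeft_eq_zero_of_unit z (hodd 0 _)
  rw [← zsmul_id_whiskerLeft, hz, MonoidalCategory.whiskerLeft_comp, h2, comp_zero]

/-- `p = 0` on `R ⊗ (X ⊗ C)` -/
theorem zsmul_HC (X : T) : p • 𝟙 (HC R C X) = 0 := by
  have h1 : p • 𝟙 ((R ⊗ C) ⊗ X) = 0 := by
    rw [← zsmul_id_whiskerRight, zsmul_RC hC hodd, MonoidalPreadditive.zero_whiskerRight]
  have h2 : p • 𝟙 (HC R C X) = (hcIso R C X).hom ≫ (p • 𝟙 ((R ⊗ C) ⊗ X)) ≫ (hcIso R C X).inv := by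
    rw [Preadditive.zsmul_comp, Preadditive.comp_zsmul, Category.id_comp, Iso.hom_inv_id]
  rw [h2, h1, zero_comp, comp_zero]

/-- `p` is null -/
theorem null_zsmul (X : T) (q : ℤ) : Null R C ((p * q) • 𝟙 X) := by
  intro k w
  have h1 : hmap R C ((p * q) • 𝟙 X) = q • (p • 𝟙 (HC R C X)) := by
    rw [hmap, zsmul_id_whiskerRight, zsmul_id_whiskerLeft, mul_comm, mul_smul]
  rw [h1, zsmul_HC hC hodd, smul_zero, comp_zero]

omit hC in
theorem HC_odd {d : ℤ} {Z : T} (hZ : EvenCell T d Z) (k : ℤ)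
    (f : (𝟙_ T)⟦2 * k + 1⟧ ⟶ HC R C Z) : f = 0 := by
  rw [← cancel_mono (hcIso R C Z).hom, zero_comp]
  exact hZ.odd_zero hodd k _

omit hC in
/-- the connecting map of even complexes is null -/
theorem null_of_even {d d' : ℤ} {X Z : T} (hX : EvenCell T d X) (hZ : EvenCell T d' Z)
    (h : Z ⟶ X⟦(1 : ℤ)⟧) : Null R C h := by
  intro k w
  rcases Int.even_or_odd' k with ⟨a, rfl | rfl⟩
  · rw [← cancel_mono (hcShift R C X 1).hom, zero_comp]
    exact eq_zero_of_shift (2 * (a - 1) + 1) 1 (2 * a) (by ring) (HC_odd hodd hX (a - 1)) _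
  · rw [HC_odd hodd hZ a w, zero_comp]

variable {P : T → Prop} (zero : ∀ X : T, IsZero X → P X) (sph : ∀ k : ℤ, P ((𝟙_ T)⟦k⟧))
  (shift : ∀ (X : T) (m : ℤ), P X → P (X⟦m⟧))
  (ext : ∀ {X Y Z : T} (f : X ⟶ Y) (g : Y ⟶ Z) (h : Z ⟶ X⟦(1 : ℤ)⟧),
    Triangle.mk f g h ∈ distTriang T → Null R C h → P X → P Z → P Y)

include zero ext in
omit hC hodd [MonObj R] in
theorem prop_of_iso {X Y : T} (e : X ≅ Y) (h : P X) : P Y := by
  refine ext e.hom (0 : Y ⟶ (0 : T)) (0 : (0 : T) ⟶ X⟦(1 : ℤ)⟧) ?_ ?_ h (zero _ (isZero_zero T))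
  · rw [Triangle.distinguished_iff_of_isZero₃ _ (isZero_zero T)]
    change IsIso e.hom
    infer_instance
  · intro k w
    rw [hmap_zero, comp_zero]

include zero sph ext in
omit hC in
theorem prop_of_evenCell {d : ℤ} {F : T} (hF : EvenCell T d F) : P F := by
  induction hF with
  | zero X hX => exact zero X hX
  | sphere k hk => exact sph (2 * k)
  | ext Δ hΔ h₁ h₃ ih₁ ih₃ =>
    exact ext Δ.mor₁ Δ.mor₂ Δ.mor₃ hΔ (null_of_even hodd h₁ h₃ Δ.mor₃) ih₁ ih₃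

include zero shift ext in
omit hC hodd [MonObj R] in
theorem prop_of_shift {X : T} (m : ℤ) (h : P (X⟦m⟧)) : P X :=
  prop_of_iso (R := R) (C := C) zero ext ((shiftFunctorCompIsoId T m (-m) (by omega)).app X)
    (shift _ (-m) h)

include zero sph shift ext in
/-- **Induction over test objects.** -/
theorem TestObj.induction
    (coprod : ∀ {I : Type} (Y : I → T), (∀ i, P (Y i)) → P (∐ Y)) {F : T} (hF : TestObj C F) :
    P F := by
  have hc : ∀ {F : T} (m d : ℤ), EvenCell T d (F⟦m⟧) → P F := fun m d hF =>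
    prop_of_shift (R := R) (C := C) zero shift ext m (prop_of_evenCell hodd zero sph ext hF)
  induction hF with
  | cell m d hF => exact hc m d hF
  | coprod Y _ ih => exact coprod Y ih
  | @moore F m d hF =>
    have hP := hc m d hF
    obtain ⟨h1, H1⟩ := dist_red hC F
    -- `F ⟶ C ⊗ F ⟶ F⟦1⟧`
    have H2 : Triangle.mk (red i F) h1 (-((p • 𝟙 F)⟦(1 : ℤ)⟧')) ∈ distTriang T :=
      rot_of_distTriang _ H1
    have e1 : -((p • 𝟙 F)⟦(1 : ℤ)⟧') = (p * (-1)) • 𝟙 (F⟦(1 : ℤ)⟧) := by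
      rw [Functor.map_zsmul, CategoryTheory.Functor.map_id, mul_neg, _root_.mul_one, neg_smul]
    rw [e1] at H2
    exact prop_of_iso (R := R) (C := C) zero ext (β_ C F)
      (ext _ _ _ H2 (null_zsmul hC hodd _ _) hP (shift _ 1 hP))

end

end Vale.Agent.P221.H520
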